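import Mathlib
import Vale.Agent.P087.Defs
import Vale.Agent.P087.Main
import Vale.Agent.P087.Trace

/-!
# P087: microstates and nonmicrostates free entropy differ
-/

namespace Vale.Agent.Results.P087.ChiNeChiStar

open MeasureTheory Set Vale.Agent.P087

/-- A bounded self-adjoint tuple with finite microstates free entropy strictly below the
nonmicrostates free entropy. The vector state is a faithful trace on the double commutant of
`X, S`, and conjugate variables lie in the closed orbit of the double commutant of `X + √t S`. -/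
theorem result :
    ∃ (n : ℕ) (H : Type) (_ : NormedAddCommGroup H) (_ : InnerProductSpace ℂ H)
      (_ : CompleteSpace H) (Ω : H) (X S : Fin n → H →L[ℂ] H) (ξ : ℝ → Fin n → H),
      1 ≤ n ∧ Setting Ω X S ∧
      FaithfulTraceOn Ω (wStar (range X ∪ range S)) ∧
      (∀ t : ℝ, SameOrbitClosure Ω fun i => X i + (Real.sqrt t : ℂ) • S i) ∧
      (∀ t : ℝ, 0 < t → ∀ j,
        IsConjugate Ω (fun i => X i + (Real.sqrt t : ℂ) • S i) j (ξ t j)) ∧
      IntegrableOn (fun t : ℝ => (n : ℝ) / (1 + t) - ∑ j, ‖ξ t j‖ ^ 2) (Ioi 0) ∧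
      ⊥ < chi (moments Ω X) ∧
      chi (moments Ω X) <
        (((1 / 2) * (∫ t in Ioi (0 : ℝ), ((n : ℝ) / (1 + t) - ∑ j, ‖ξ t j‖ ^ 2)) +
          (n : ℝ) / 2 * Real.log (2 * Real.pi * Real.exp 1) : ℝ) : EReal) :=
  by
  obtain ⟨n, H, iN, iI, iC, Ω, X, S, ξ, hn, hset, h1, h2, h3, h4⟩ :=
    exists_counterexample (2 ^ 60) (by norm_num)
  refine ⟨n, H, iN, iI, iC, Ω, X, S, ξ, hn, hset, hset.trace,
    fun t => closure_doubleCommutant Ω fun i => (hset.selfAdjoint i).1.add ?_, h1, h2, h3, h4⟩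
  exact IsSelfAdjoint.smul (Complex.conj_ofReal _) (hset.selfAdjoint i).2

end Vale.Agent.Results.P087.ChiNeChiStar
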